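import Mathlib
import Vale.Agent.Lib.P335.Defs
import Vale.Agent.Lib.P335.helper26.BipDefs
import Vale.Agent.Lib.P335.BridgeDefs

/-!
Split degree vectors: the realizations of a split degree vector are the margin matrices.
-/

namespace Vale.Agent.Lib.P335.Bip.H32

open Finset
open scoped Classical
open Vale.Agent.Lib.P335.Bridge

/-- Counting through an enumeration of a finite set. -/
lemma card_filter_enum {α ι : Type*} [Fintype ι] (s : Finset α) (e : ι ≃ ↥s)
    (P : α → Prop) :
    (univ.filter (fun j : ι => P (e j : α))).card = (s.filter P).card := by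
  apply Finset.card_bij (fun j _ => (e j : α))
  · intro j hj
    rw [mem_filter] at hj ⊢
    exact ⟨(e j).2, hj.2⟩
  · intro j1 _ j2 _ h
    exact e.injective (Subtype.ext h)
  · intro a ha
    rw [mem_filter] at ha
    refine ⟨e.symm ⟨a, ha.1⟩, ?_, ?_⟩
    · rw [mem_filter]
      refine ⟨mem_univ _, ?_⟩
      rw [Equiv.apply_symm_apply]
      exact ha.2
    · rw [Equiv.apply_symm_apply]

section counting

variable {n : ℕ} (K : Finset (Fin n)) (G : SimpleGraph (Fin n))

/-- the degree splits into the neighbours inside and outside `K` -/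
lemma degree_eq_in_add_out (v : Fin n) :
    G.degree v = (K.filter (G.Adj v)).card + (Kᶜ.filter (G.Adj v)).card := by
  rw [← SimpleGraph.card_neighborFinset_eq_degree, SimpleGraph.neighborFinset_eq_filter,
    ← Finset.card_filter_add_card_filter_not (p := fun w => w ∈ K)]
  congr 1
  · congr 1
    ext w
    simp only [mem_filter, mem_univ, true_and]
    tauto
  · congr 1
    ext w
    simp only [mem_filter, mem_univ, true_and, mem_compl]
    tauto

/-- double counting of the edges between `K` and its complement -/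
lemma cross_count :
    ∑ v ∈ K, (Kᶜ.filter (G.Adj v)).card = ∑ w ∈ Kᶜ, (K.filter (G.Adj w)).card := by
  have h := Finset.sum_card_bipartiteAbove_eq_sum_card_bipartiteBelow (s := K) (t := Kᶜ) G.Adj
  have h2 : ∀ w, K.bipartiteBelow G.Adj w = K.filter (G.Adj w) := by
    intro w
    unfold Finset.bipartiteBelow
    apply Finset.filter_congr
    intro a _
    exact G.adj_comm a w
  simp only [h2] at h
  exact h

lemma in_le (v : Fin n) (hv : v ∈ K) : (K.filter (G.Adj v)).card ≤ K.card - 1 := by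
  rw [← Finset.card_erase_of_mem hv]
  apply Finset.card_le_card
  intro w hw
  rw [mem_filter] at hw
  rw [mem_erase]
  exact ⟨fun h => G.loopless.irrefl v (h ▸ hw.2), hw.1⟩

end counting

section split

variable {n : ℕ} {d : Fin n → ℕ} (K : Finset (Fin n))

/-- the balance identity of a realization -/
lemma balance (G : Omega n d) :
    ∑ v ∈ K, d v + ∑ w ∈ Kᶜ, (Kᶜ.filter (G.1.Adj w)).card =
      ∑ w ∈ Kᶜ, d w + ∑ v ∈ K, (K.filter (G.1.Adj v)).card := by
  have h1 : ∑ v ∈ K, d v =
      ∑ v ∈ K, (K.filter (G.1.Adj v)).card + ∑ v ∈ K, (Kᶜ.filter (G.1.Adj v)).card := by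
    rw [← Finset.sum_add_distrib]
    refine Finset.sum_congr rfl (fun v _ => ?_)
    rw [← G.2 v]
    exact degree_eq_in_add_out K G.1 v
  have h2 : ∑ w ∈ Kᶜ, d w =
      ∑ w ∈ Kᶜ, (K.filter (G.1.Adj w)).card + ∑ w ∈ Kᶜ, (Kᶜ.filter (G.1.Adj w)).card := by
    rw [← Finset.sum_add_distrib]
    refine Finset.sum_congr rfl (fun w _ => ?_)
    rw [← G.2 w]
    exact degree_eq_in_add_out K G.1 w
  have h3 := cross_count K G.1
  omega

/-- If one realization of `d` has `K` a clique and the complement of `K` independent, then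
every realization does. -/
theorem split_of_realization (G0 G : Omega n d)
    (h0K : ∀ a ∈ K, ∀ b ∈ K, a ≠ b → G0.1.Adj a b)
    (h0C : ∀ a, a ∉ K → ∀ b, b ∉ K → ¬ G0.1.Adj a b) :
    (∀ a ∈ K, ∀ b ∈ K, a ≠ b → G.1.Adj a b) ∧ (∀ a, a ∉ K → ∀ b, b ∉ K → ¬ G.1.Adj a b) := by
  have hb0 := balance K G0
  have hb := balance K G
  have hA0 : ∑ v ∈ K, (K.filter (G0.1.Adj v)).card = ∑ _v ∈ K, (K.card - 1) := by
    refine Finset.sum_congr rfl (fun v hv => ?_)
    rw [← Finset.card_erase_of_mem hv]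
    congr 1
    ext w
    rw [mem_filter, mem_erase]
    constructor
    · rintro ⟨hw, hadj⟩
      exact ⟨fun h => G0.1.loopless.irrefl v (h ▸ hadj), hw⟩
    · rintro ⟨hne, hw⟩
      exact ⟨hw, h0K v hv w hw (Ne.symm hne)⟩
  have hB0 : ∑ w ∈ Kᶜ, (Kᶜ.filter (G0.1.Adj w)).card = 0 := by
    refine Finset.sum_eq_zero (fun w hw => ?_)
    rw [Finset.card_eq_zero, Finset.filter_eq_empty_iff]
    intro b hb
    exact h0C w (mem_compl.1 hw) b (mem_compl.1 hb)
  have hAle : ∑ v ∈ K, (K.filter (G.1.Adj v)).card ≤ ∑ _v ∈ K, (K.card - 1) :=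
    Finset.sum_le_sum (fun v hv => in_le K G.1 v hv)
  have hB : ∑ w ∈ Kᶜ, (Kᶜ.filter (G.1.Adj w)).card = 0 := by omega
  have hA : ∑ v ∈ K, (K.filter (G.1.Adj v)).card = ∑ _v ∈ K, (K.card - 1) := by omega
  have hAeq : ∀ v ∈ K, (K.filter (G.1.Adj v)).card = K.card - 1 :=
    (Finset.sum_eq_sum_iff_of_le (fun v hv => in_le K G.1 v hv)).1 hA
  constructor
  · intro a ha b hb hab
    have hsub : K.filter (G.1.Adj a) ⊆ K.erase a := by
      intro w hw
      rw [mem_filter] at hw
      rw [mem_erase]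
      exact ⟨fun h => G.1.loopless.irrefl a (h ▸ hw.2), hw.1⟩
    have hcard : (K.erase a).card ≤ (K.filter (G.1.Adj a)).card := by
      rw [hAeq a ha, Finset.card_erase_of_mem ha]
    have heq := Finset.eq_of_subset_of_card_le hsub hcard
    have hbmem : b ∈ K.erase a := mem_erase.2 ⟨Ne.symm hab, hb⟩
    rw [← heq, mem_filter] at hbmem
    exact hbmem.2
  · intro a ha b hb hadj
    have h0 := (Finset.sum_eq_zero_iff.1 hB) a (mem_compl.2 ha)
    rw [Finset.card_eq_zero, Finset.filter_eq_empty_iff] at h0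
    exact h0 (mem_compl.2 hb) hadj

/-- Under the split condition every realization has `K` a clique and the complement of `K`
independent. -/
theorem isSplitOn_of_splitCond (h : SplitCond d K) (G : Omega n d) : IsSplitOn G.1 K := by
  have hb := balance K G
  unfold SplitCond at h
  have hAle : ∑ v ∈ K, (K.filter (G.1.Adj v)).card ≤ ∑ _v ∈ K, (K.card - 1) :=
    Finset.sum_le_sum (fun v hv => in_le K G.1 v hv)
  have hconst : ∑ _v ∈ K, (K.card - 1) = K.card * (K.card - 1) := by
    rw [Finset.sum_const, smul_eq_mul]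
  have hB : ∑ w ∈ Kᶜ, (Kᶜ.filter (G.1.Adj w)).card = 0 := by omega
  have hA : ∑ v ∈ K, (K.filter (G.1.Adj v)).card = ∑ _v ∈ K, (K.card - 1) := by omega
  have hAeq : ∀ v ∈ K, (K.filter (G.1.Adj v)).card = K.card - 1 :=
    (Finset.sum_eq_sum_iff_of_le (fun v hv => in_le K G.1 v hv)).1 hA
  constructor
  · intro a ha b hb hab
    have hsub : K.filter (G.1.Adj a) ⊆ K.erase a := by
      intro w hw
      rw [mem_filter] at hw
      rw [mem_erase]
      exact ⟨fun h => G.1.loopless.irrefl a (h ▸ hw.2), hw.1⟩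
    have hcard : (K.erase a).card ≤ (K.filter (G.1.Adj a)).card := by
      rw [hAeq a ha, Finset.card_erase_of_mem ha]
    have heq := Finset.eq_of_subset_of_card_le hsub hcard
    have hbmem : b ∈ K.erase a := mem_erase.2 ⟨Ne.symm hab, hb⟩
    rw [← heq, mem_filter] at hbmem
    exact hbmem.2
  · intro a ha b hb hadj
    have h0 := (Finset.sum_eq_zero_iff.1 hB) a (mem_compl.2 ha)
    rw [Finset.card_eq_zero, Finset.filter_eq_empty_iff] at h0
    exact h0 (mem_compl.2 hb) hadj

/-- A realization with `K` a clique and the complement of `K` independent forces the split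
condition. -/
theorem splitCond_of_isSplitOn (G0 : Omega n d) (h0 : IsSplitOn G0.1 K) : SplitCond d K := by
  obtain ⟨h0K, h0C⟩ := h0
  have hb0 := balance K G0
  have hA0 : ∑ v ∈ K, (K.filter (G0.1.Adj v)).card = ∑ _v ∈ K, (K.card - 1) := by
    refine Finset.sum_congr rfl (fun v hv => ?_)
    rw [← Finset.card_erase_of_mem hv]
    congr 1
    ext w
    rw [mem_filter, mem_erase]
    constructor
    · rintro ⟨hw, hadj⟩
      exact ⟨fun h => G0.1.loopless.irrefl v (h ▸ hadj), hw⟩
    · rintro ⟨hne, hw⟩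
      exact ⟨hw, h0K v hv w hw (Ne.symm hne)⟩
  have hB0 : ∑ w ∈ Kᶜ, (Kᶜ.filter (G0.1.Adj w)).card = 0 := by
    refine Finset.sum_eq_zero (fun w hw => ?_)
    rw [Finset.card_eq_zero, Finset.filter_eq_empty_iff]
    intro b hb
    exact h0C w (mem_compl.1 hw) b (mem_compl.1 hb)
  have hconst : ∑ _v ∈ K, (K.card - 1) = K.card * (K.card - 1) := by
    rw [Finset.sum_const, smul_eq_mul]
  unfold SplitCond
  omega

end split

section matrix

variable {n : ℕ} (U : Finset (Fin n))

/-- the vertex of `U` with row index `i` -/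
noncomputable def rowV (i : Fin U.card) : Fin n := (U.equivFin.symm i : Fin n)

/-- the vertex outside `U` with column index `j` -/
noncomputable def colV (j : Fin Uᶜ.card) : Fin n := ((Uᶜ).equivFin.symm j : Fin n)

lemma rowV_mem (i : Fin U.card) : rowV U i ∈ U := (U.equivFin.symm i).2

lemma colV_not_mem (j : Fin Uᶜ.card) : colV U j ∉ U := mem_compl.1 ((Uᶜ).equivFin.symm j).2

lemma rowV_injective : Function.Injective (rowV U) := by
  intro i i' h
  exact U.equivFin.symm.injective (Subtype.ext h)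

lemma colV_injective : Function.Injective (colV U) := by
  intro j j' h
  exact (Uᶜ).equivFin.symm.injective (Subtype.ext h)

lemma exists_rowV {v : Fin n} (hv : v ∈ U) : ∃ i, rowV U i = v :=
  ⟨U.equivFin ⟨v, hv⟩, by unfold rowV; rw [Equiv.symm_apply_apply]⟩

lemma exists_colV {v : Fin n} (hv : v ∉ U) : ∃ j, colV U j = v :=
  ⟨(Uᶜ).equivFin ⟨v, mem_compl.2 hv⟩, by unfold colV; rw [Equiv.symm_apply_apply]⟩

lemma rowV_ne_colV (i : Fin U.card) (j : Fin Uᶜ.card) : rowV U i ≠ colV U j := by
  intro h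
  exact colV_not_mem U j (h ▸ rowV_mem U i)

/-- The margin matrix of a graph: rows are the vertices of `U`, columns the other vertices. -/
noncomputable def toMat (G : SimpleGraph (Fin n)) : Mat U.card Uᶜ.card :=
  fun i => univ.filter (fun j => G.Adj (rowV U i) (colV U j))

lemma mem_toMat (G : SimpleGraph (Fin n)) (i : Fin U.card) (j : Fin Uᶜ.card) :
    j ∈ toMat U G i ↔ G.Adj (rowV U i) (colV U j) := by
  unfold toMat
  rw [mem_filter]
  exact ⟨fun h => h.2, fun h => ⟨mem_univ _, h⟩⟩

lemma in_eq (G : SimpleGraph (Fin n)) (hG : IsSplitOn G U) {v : Fin n} (hv : v ∈ U) :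
    (U.filter (G.Adj v)).card = U.card - 1 := by
  rw [← Finset.card_erase_of_mem hv]
  congr 1
  ext w
  rw [mem_filter, mem_erase]
  constructor
  · rintro ⟨hw, hadj⟩
    exact ⟨fun h => G.loopless.irrefl v (h ▸ hadj), hw⟩
  · rintro ⟨hne, hw⟩
    exact ⟨hw, hG.1 v hv w hw (Ne.symm hne)⟩

lemma out_eq_zero (G : SimpleGraph (Fin n)) (hG : IsSplitOn G U) {w : Fin n} (hw : w ∉ U) :
    (Uᶜ.filter (G.Adj w)).card = 0 := by
  rw [Finset.card_eq_zero, Finset.filter_eq_empty_iff]
  intro b hb
  exact hG.2 w hw b (mem_compl.1 hb)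

/-- row sums of the margin matrix of a split graph -/
lemma card_toMat_row (G : SimpleGraph (Fin n)) (hG : IsSplitOn G U) (i : Fin U.card) :
    (toMat U G i).card + (U.card - 1) = G.degree (rowV U i) := by
  rw [degree_eq_in_add_out U G, in_eq U G hG (rowV_mem U i), add_comm]
  congr 1
  unfold toMat
  exact card_filter_enum (Uᶜ) ((Uᶜ).equivFin.symm) (G.Adj (rowV U i))

/-- column sums of the margin matrix of a split graph -/
lemma colSum_toMat (G : SimpleGraph (Fin n)) (hG : IsSplitOn G U) (j : Fin Uᶜ.card) :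
    colSum (toMat U G) j = G.degree (colV U j) := by
  rw [degree_eq_in_add_out U G, out_eq_zero U G hG (colV_not_mem U j), add_zero]
  unfold colSum
  have h1 : (univ.filter (fun i => j ∈ toMat U G i)) =
      univ.filter (fun i : Fin U.card => G.Adj (colV U j) ((U.equivFin.symm i : U) : Fin n)) := by
    apply Finset.filter_congr
    intro i _
    rw [mem_toMat]
    exact G.adj_comm _ _
  rw [h1]
  exact card_filter_enum U (U.equivFin.symm) (G.Adj (colV U j))

/-- two split graphs with the same margin matrix are equal -/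
lemma split_ext (G G' : SimpleGraph (Fin n)) (hG : IsSplitOn G U) (hG' : IsSplitOn G' U)
    (h : toMat U G = toMat U G') : G = G' := by
  have hcross : ∀ u v, u ∈ U → v ∉ U → (G.Adj u v ↔ G'.Adj u v) := by
    intro u v hu hv
    obtain ⟨i, rfl⟩ := exists_rowV U hu
    obtain ⟨j, rfl⟩ := exists_colV U hv
    rw [← mem_toMat, ← mem_toMat, h]
  ext u v
  by_cases hu : u ∈ U
  · by_cases hv : v ∈ U
    · by_cases huv : u = v
      · subst huv
        exact ⟨fun h' => absurd h' (G.loopless.irrefl u), fun h' => absurd h' (G'.loopless.irrefl u)⟩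
      · exact ⟨fun _ => hG'.1 u hu v hv huv, fun _ => hG.1 u hu v hv huv⟩
    · exact hcross u v hu hv
  · by_cases hv : v ∈ U
    · rw [G.adj_comm, G'.adj_comm]
      exact hcross v u hv hu
    · exact ⟨fun h' => absurd h' (hG.2 u hu v hv), fun h' => absurd h' (hG'.2 u hu v hv)⟩

/-- The split graph of a margin matrix. -/
def ofMat (x : Mat U.card Uᶜ.card) : SimpleGraph (Fin n) :=
  SimpleGraph.fromRel (fun u v => (u ∈ U ∧ v ∈ U) ∨ ∃ i j, rowV U i = u ∧ colV U j = v ∧ j ∈ x i)

lemma isSplitOn_ofMat (x : Mat U.card Uᶜ.card) : IsSplitOn (ofMat U x) U := by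
  constructor
  · intro u hu v hv huv
    unfold ofMat
    rw [SimpleGraph.fromRel_adj]
    exact ⟨huv, Or.inl (Or.inl ⟨hu, hv⟩)⟩
  · intro u hu v hv hadj
    unfold ofMat at hadj
    rw [SimpleGraph.fromRel_adj] at hadj
    rcases hadj.2 with h | h
    · rcases h with h | ⟨i, j, h1, _, _⟩
      · exact hu h.1
      · exact hu (h1 ▸ rowV_mem U i)
    · rcases h with h | ⟨i, j, h1, _, _⟩
      · exact hv h.1
      · exact hv (h1 ▸ rowV_mem U i)

lemma ofMat_adj_cross (x : Mat U.card Uᶜ.card) (i : Fin U.card) (j : Fin Uᶜ.card) :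
    (ofMat U x).Adj (rowV U i) (colV U j) ↔ j ∈ x i := by
  unfold ofMat
  rw [SimpleGraph.fromRel_adj]
  constructor
  · rintro ⟨-, h | h⟩
    · rcases h with h | ⟨i', j', h1, h2, h3⟩
      · exact absurd h.2 (colV_not_mem U j)
      · rw [rowV_injective U h1, colV_injective U h2] at h3
        exact h3
    · rcases h with h | ⟨i', j', h1, _, _⟩
      · exact absurd h.1 (colV_not_mem U j)
      · exact absurd (h1 ▸ rowV_mem U i') (colV_not_mem U j)
  · intro h
    exact ⟨rowV_ne_colV U i j, Or.inl (Or.inr ⟨i, j, rfl, rfl, h⟩)⟩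

lemma toMat_ofMat (x : Mat U.card Uᶜ.card) : toMat U (ofMat U x) = x := by
  funext i
  ext j
  rw [mem_toMat, ofMat_adj_cross]

end matrix

section equiv

variable {n : ℕ} {d : Fin n → ℕ} (U : Finset (Fin n))

/-- The margin matrix of a realization of a split degree vector. -/
noncomputable def toOm (h : SplitCond d U) (G : Omega n d) :
    Om U.card Uᶜ.card (rowM d U) (colM d U) :=
  ⟨toMat U G.1, by
    have hG := isSplitOn_of_splitCond U h G
    constructor
    · intro i
      have h1 := card_toMat_row U G.1 hG i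
      rw [G.2] at h1
      show (toMat U G.1 i).card = d (rowV U i) - (U.card - 1)
      omega
    · intro j
      rw [colSum_toMat U G.1 hG j, G.2]
      rfl⟩

lemma toOm_val (h : SplitCond d U) (G : Omega n d) : (toOm U h G).1 = toMat U G.1 := rfl

lemma toOm_injective (h : SplitCond d U) : Function.Injective (toOm U h) := by
  intro G G' hGG'
  have h1 : toMat U G.1 = toMat U G'.1 := congrArg Subtype.val hGG'
  exact Subtype.ext (split_ext U G.1 G'.1 (isSplitOn_of_splitCond U h G)
    (isSplitOn_of_splitCond U h G') h1)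

lemma toOm_surjective (h : SplitCond d U) (G0 : Omega n d) :
    Function.Surjective (toOm U h) := by
  intro x
  have hG0 := isSplitOn_of_splitCond U h G0
  have hdeg : ∀ v, (ofMat U x.1).degree v = d v := by
    intro v
    by_cases hv : v ∈ U
    · obtain ⟨i, rfl⟩ := exists_rowV U hv
      have h1 := card_toMat_row U (ofMat U x.1) (isSplitOn_ofMat U x.1) i
      rw [toMat_ofMat] at h1
      have h2 : (x.1 i).card = d (rowV U i) - (U.card - 1) := x.2.1 i
      have h3 : U.card - 1 ≤ d (rowV U i) := by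
        rw [← G0.2 (rowV U i), degree_eq_in_add_out U G0.1, in_eq U G0.1 hG0 (rowV_mem U i)]
        exact Nat.le_add_right _ _
      omega
    · obtain ⟨j, rfl⟩ := exists_colV U hv
      have h1 := colSum_toMat U (ofMat U x.1) (isSplitOn_ofMat U x.1) j
      rw [toMat_ofMat] at h1
      have h2 : colSum x.1 j = d (colV U j) := x.2.2 j
      omega
  refine ⟨⟨ofMat U x.1, hdeg⟩, ?_⟩
  apply Subtype.ext
  rw [toOm_val]
  exact toMat_ofMat U x.1

end equiv

section switch

variable {n : ℕ} (U : Finset (Fin n))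

lemma sym2_cross_eq (i i₀ : Fin U.card) (j j₀ : Fin Uᶜ.card) :
    s(rowV U i₀, colV U j₀) = s(rowV U i, colV U j) ↔ i₀ = i ∧ j₀ = j := by
  rw [Sym2.eq_iff]
  constructor
  · rintro (⟨h1, h2⟩ | ⟨h1, _⟩)
    · exact ⟨rowV_injective U h1, colV_injective U h2⟩
    · exact absurd h1 (rowV_ne_colV U i₀ j)
  · rintro ⟨rfl, rfl⟩
    exact Or.inl ⟨rfl, rfl⟩

lemma sym2_cross_eq' (i i₀ : Fin U.card) (j j₀ : Fin Uᶜ.card) :
    s(rowV U i₀, colV U j₀) = s(colV U j, rowV U i) ↔ i₀ = i ∧ j₀ = j := by
  rw [Sym2.eq_swap (a := colV U j), sym2_cross_eq]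

/-- membership in a switched matrix -/
lemma mem_swMat {m k : ℕ} (x : Mat m k) (i i' : Fin m) (j j' : Fin k) (hii' : i ≠ i')
    (i₀ : Fin m) (j₀ : Fin k) :
    j₀ ∈ swMat x i i' j j' i₀ ↔
      (j₀ ∈ x i₀ ∧ ¬(i₀ = i ∧ j₀ = j) ∧ ¬(i₀ = i' ∧ j₀ = j')) ∨ (i₀ = i ∧ j₀ = j') ∨
        (i₀ = i' ∧ j₀ = j) := by
  unfold swMat
  by_cases h1 : i₀ = i'
  · subst h1
    have hne : i₀ ≠ i := Ne.symm hii'
    rw [Function.update_self, mem_insert, mem_erase]
    tauto
  · rw [Function.update_of_ne h1]
    by_cases h2 : i₀ = i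
    · subst h2
      rw [Function.update_self, mem_insert, mem_erase]
      tauto
    · rw [Function.update_of_ne h2]
      tauto

lemma fromEdgeSet_switch_adj (G : SimpleGraph (Fin n)) (a b c e u v : Fin n) :
    (SimpleGraph.fromEdgeSet ((G.edgeSet \ {s(a, b), s(c, e)}) ∪ {s(a, c), s(b, e)})).Adj u v ↔
      ((G.Adj u v ∧ ¬ s(u, v) = s(a, b) ∧ ¬ s(u, v) = s(c, e)) ∨
        s(u, v) = s(a, c) ∨ s(u, v) = s(b, e)) ∧ u ≠ v := by
  rw [SimpleGraph.fromEdgeSet_adj]
  simp only [Set.mem_union, Set.mem_sdiff, Set.mem_insert_iff, Set.mem_singleton_iff,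
    SimpleGraph.mem_edgeSet, not_or]

lemma not_sym2_eq_of_mem {u u' p q : Fin n} (hu : u ∈ U) (hu' : u' ∈ U)
    (h : p ∉ U ∨ q ∉ U) : ¬ s(u, u') = s(p, q) := by
  intro heq
  rcases h with h | h
  · have hm : p ∈ s(u, u') := by
      rw [heq]
      exact Sym2.mem_mk_left _ _
    rw [Sym2.mem_iff] at hm
    rcases hm with h' | h'
    · exact h (h' ▸ hu)
    · exact h (h' ▸ hu')
  · have hm : q ∈ s(u, u') := by
      rw [heq]
      exact Sym2.mem_mk_right _ _
    rw [Sym2.mem_iff] at hm
    rcases hm with h' | h'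
    · exact h (h' ▸ hu)
    · exact h (h' ▸ hu')

lemma not_sym2_eq_of_not_mem {w w' p q : Fin n} (hw : w ∉ U) (hw' : w' ∉ U)
    (h : p ∈ U ∨ q ∈ U) : ¬ s(w, w') = s(p, q) := by
  intro heq
  rcases h with h | h
  · have hm : p ∈ s(w, w') := by
      rw [heq]
      exact Sym2.mem_mk_left _ _
    rw [Sym2.mem_iff] at hm
    rcases hm with h' | h'
    · exact hw (h' ▸ h)
    · exact hw' (h' ▸ h)
  · have hm : q ∈ s(w, w') := by
      rw [heq]
      exact Sym2.mem_mk_right _ _
    rw [Sym2.mem_iff] at hm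
    rcases hm with h' | h'
    · exact hw (h' ▸ h)
    · exact hw' (h' ▸ h)

/-- switching two cross edges of a split graph gives a split graph -/
lemma isSplitOn_switch (G : SimpleGraph (Fin n)) (hG : IsSplitOn G U) (a b c e : Fin n)
    (ha : a ∈ U) (hb : b ∉ U) (hc : c ∉ U) (he : e ∈ U) :
    IsSplitOn (SimpleGraph.fromEdgeSet
      ((G.edgeSet \ {s(a, b), s(c, e)}) ∪ {s(a, c), s(b, e)})) U := by
  constructor
  · intro u hu u' hu' hne
    rw [fromEdgeSet_switch_adj]
    exact ⟨Or.inl ⟨hG.1 u hu u' hu' hne, not_sym2_eq_of_mem U hu hu' (Or.inr hb),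
      not_sym2_eq_of_mem U hu hu' (Or.inl hc)⟩, hne⟩
  · intro w hw w' hw' hadj'
    rw [fromEdgeSet_switch_adj] at hadj'
    rcases hadj'.1 with ⟨h, _, _⟩ | h | h
    · exact hG.2 w hw w' hw' h
    · exact not_sym2_eq_of_not_mem U hw hw' (Or.inl ha) h
    · exact not_sym2_eq_of_not_mem U hw hw' (Or.inr he) h

/-- the margin matrix of a switched split graph -/
lemma toMat_switch (G : SimpleGraph (Fin n)) (i i' : Fin U.card) (j j' : Fin Uᶜ.card)
    (hii' : i ≠ i') :
    toMat U (SimpleGraph.fromEdgeSet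
      ((G.edgeSet \ {s(rowV U i, colV U j), s(colV U j', rowV U i')}) ∪
        {s(rowV U i, colV U j'), s(colV U j, rowV U i')})) = swMat (toMat U G) i i' j j' := by
  funext i₀
  ext j₀
  rw [mem_swMat _ _ _ _ _ hii', mem_toMat, mem_toMat, fromEdgeSet_switch_adj,
    and_iff_left (rowV_ne_colV U i₀ j₀), sym2_cross_eq, sym2_cross_eq', sym2_cross_eq,
    sym2_cross_eq']

/-- A switch of the margin matrices of two split graphs is a switch of the graphs. -/
theorem gswitch_of_isSwitch (G G' : SimpleGraph (Fin n)) (hG : IsSplitOn G U)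
    (hG' : IsSplitOn G' U) (h : IsSwitch (toMat U G) (toMat U G')) : GSwitch G G' := by
  obtain ⟨i, i', j, j', -, -, hii', hjj', h1, h2, h3, h4, hy⟩ := h
  rw [mem_toMat] at h1 h2 h3 h4
  refine ⟨rowV U i, colV U j, colV U j', rowV U i', rowV_ne_colV U i j, rowV_ne_colV U i j',
    fun h => hii' (rowV_injective U h), fun h => hjj' (colV_injective U h),
    (rowV_ne_colV U i' j).symm, (rowV_ne_colV U i' j').symm, h1, h3.symm, h2,
    fun h => h4 h.symm, ?_⟩
  apply split_ext U G' _ hG' (isSplitOn_switch U G hG _ _ _ _ (rowV_mem U i)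
    (colV_not_mem U j) (colV_not_mem U j') (rowV_mem U i'))
  rw [hy, toMat_switch U G i i' j j' hii']

end switch

section poincare

variable {n : ℕ} {d : Fin n → ℕ} (K : Finset (Fin n))

/-- Under the split condition the realizations of `d` are in bijection with the margin
matrices of the attached bipartite system. -/
noncomputable def omEquiv (h : SplitCond d K) (G0 : Omega n d) :
    Omega n d ≃ Om K.card Kᶜ.card (rowM d K) (colM d K) :=
  Equiv.ofBijective (toOm K h) ⟨toOm_injective K h, toOm_surjective K h G0⟩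

lemma omEquiv_val (h : SplitCond d K) (G0 G : Omega n d) :
    (omEquiv K h G0 G).1 = toMat K G.1 := rfl

/-- Transfer of the Poincare inequality from the margin matrices of the attached bipartite
system to the realizations of a degree vector with the split condition. -/
theorem split_poincare_of_splitCond (h : SplitCond d K)
    (hbip : ∀ f : Om K.card Kᶜ.card (rowM d K) (colM d K) → ℝ, ∑ x, f x = 0 →
        4 * ∑ x, f x ^ 2 ≤ ∑ x, ∑ y, if IsSwitch x.1 y.1 then (f x - f y) ^ 2 else 0) :
    ∀ f : Omega n d → ℝ, ∑ G, f G = 0 →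
      4 * ∑ G, f G ^ 2 ≤ ∑ G, ∑ G', if GSwitch G.1 G'.1 then (f G - f G') ^ 2 else 0 := by
  intro f hf
  by_cases hne : Nonempty (Omega n d)
  · obtain ⟨G0⟩ := hne
    have h0 : ∑ x, f ((omEquiv K h G0).symm x) = 0 := by
      rw [Equiv.sum_comp (omEquiv K h G0).symm f]
      exact hf
    have h1 := hbip (fun x => f ((omEquiv K h G0).symm x)) h0
    have h2 : ∑ x, f ((omEquiv K h G0).symm x) ^ 2 = ∑ G, f G ^ 2 :=
      Equiv.sum_comp (omEquiv K h G0).symm (fun G => f G ^ 2)
    have h3 : (∑ x, ∑ y, if IsSwitch x.1 y.1 then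
          (f ((omEquiv K h G0).symm x) - f ((omEquiv K h G0).symm y)) ^ 2 else 0) =
        ∑ G, ∑ G', if IsSwitch (toMat K G.1) (toMat K G'.1) then (f G - f G') ^ 2 else 0 := by
      rw [← Equiv.sum_comp (omEquiv K h G0)]
      refine Finset.sum_congr rfl (fun G _ => ?_)
      rw [← Equiv.sum_comp (omEquiv K h G0)]
      refine Finset.sum_congr rfl (fun G' _ => ?_)
      rw [Equiv.symm_apply_apply, Equiv.symm_apply_apply, omEquiv_val, omEquiv_val]
    rw [h2, h3] at h1
    refine le_trans h1 (Finset.sum_le_sum (fun G _ => Finset.sum_le_sum (fun G' _ => ?_)))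
    by_cases hsw : IsSwitch (toMat K G.1) (toMat K G'.1)
    · rw [if_pos hsw, if_pos (gswitch_of_isSwitch K G.1 G'.1 (isSplitOn_of_splitCond K h G)
        (isSplitOn_of_splitCond K h G') hsw)]
    · rw [if_neg hsw]
      split_ifs
      · exact sq_nonneg _
      · exact le_refl _
  · rw [not_nonempty_iff] at hne
    rw [Finset.univ_eq_empty, Finset.sum_empty, Finset.sum_empty, mul_zero]

end poincare

end Vale.Agent.Lib.P335.Bip.H32

namespace Vale.Agent.Lib.P335.Bip

open Finset
open scoped Classical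
open Vale.Agent.Lib.P335.Bridge

/-- Transfer of the Poincare inequality from margin matrices to the realizations of a split
degree vector: if some realization of `d` has `K` a clique and the complement of `K`
independent, then the bipartite Poincare inequality for all margin systems gives the
Poincare inequality for the switch relation on the realizations of `d`. -/
theorem split_poincare (n : ℕ) (d : Fin n → ℕ) (K : Finset (Fin n))
    (hsplit : ∃ G : Vale.Agent.Lib.P335.Omega n d,
        (∀ a ∈ K, ∀ b ∈ K, a ≠ b → G.1.Adj a b) ∧ (∀ a, a ∉ K → ∀ b, b ∉ K → ¬ G.1.Adj a b))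
    (hbip : ∀ (m k : ℕ) (r : Fin m → ℕ) (c : Fin k → ℕ) (f : Om m k r c → ℝ), ∑ x, f x = 0 →
        4 * ∑ x, f x ^ 2 ≤ ∑ x, ∑ y, if IsSwitch x.1 y.1 then (f x - f y) ^ 2 else 0) :
    ∀ f : Vale.Agent.Lib.P335.Omega n d → ℝ, ∑ G, f G = 0 →
      4 * ∑ G, f G ^ 2 ≤ ∑ G, ∑ G', if GSwitch G.1 G'.1 then (f G - f G') ^ 2 else 0 := by
  obtain ⟨G0, h0⟩ := hsplit
  exact H32.split_poincare_of_splitCond K (H32.splitCond_of_isSplitOn K G0 h0)
    (hbip K.card Kᶜ.card (rowM d K) (colM d K))

end Vale.Agent.Lib.P335.Bip
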