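import Vale.Agent.Lib.P335.helper32.SplitGraph
import Vale.Agent.Lib.P335.helper48.MixingBridge

/-!
Split degree vectors: the bipartite Poincare inequality gives the mixing bound of the switch
chain (assembly of `split_poincare` with the mixing glue of helper48).
-/

namespace Vale.Agent.Lib.P335.Bip.H32

open Finset
open scoped Classical
open Vale.Agent.Lib.P335.Bridge

/-- If the Poincare inequality with constant `4` holds for the switch relation of every
system of margin matrices, then for every degree vector `d` on `n ≥ 4` vertices having a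
realization in which `K` is a clique and the complement of `K` is independent, the switch
chain on the realizations of `d` is within total variation distance `1/4` of the uniform
distribution after `n^6` steps, from every start. -/
theorem split_mixing_of_bip (n : ℕ) (hn : 4 ≤ n) (d : Fin n → ℕ) (K : Finset (Fin n))
    (hsplit : ∃ G : Vale.Agent.Lib.P335.Omega n d,
        (∀ a ∈ K, ∀ b ∈ K, a ≠ b → G.1.Adj a b) ∧ (∀ a, a ∉ K → ∀ b, b ∉ K → ¬ G.1.Adj a b))
    (hbip : ∀ (m k : ℕ) (r : Fin m → ℕ) (c : Fin k → ℕ) (f : Om m k r c → ℝ), ∑ x, f x = 0 →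
        4 * ∑ x, f x ^ 2 ≤ ∑ x, ∑ y, if IsSwitch x.1 y.1 then (f x - f y) ^ 2 else 0)
    (t : ℕ) (ht : n ^ 6 ≤ t) (G : Vale.Agent.Lib.P335.Omega n d) :
    Vale.Agent.Lib.P335.tvDist n d t G ≤ 1 / 4 :=
  Vale.Agent.Lib.P335.H48.mixing_of_gswitch_poincare hn (split_poincare n d K hsplit hbip) t ht G

end Vale.Agent.Lib.P335.Bip.H32
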